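import Vale.Agent.P028.Rogers

/-!
Weak inhomogeneous Duffin-Schaeffer statement, with arbitrary (moving) shifts, for functions
carried by blocks of divisors of a common multiple.
-/

open MeasureTheory Filter Set
open scoped Topology

namespace Vale.Agent.P028

/-- Union over `q ∈ S` of the intervals of radius `r q` around the points `(γ q + j) / q`. -/
def U (S : Finset ℕ) (γ r : ℕ → ℝ) : Set ℝ :=
  ⋃ q ∈ S, ⋃ j : ℤ, Ioo ((γ q + j) / q - r q) ((γ q + j) / q + r q)

theorem U_mono {S T : Finset ℕ} (h : S ⊆ T) (γ r : ℕ → ℝ) : U S γ r ⊆ U T γ r :=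
  Set.biUnion_subset_biUnion_left h

theorem isOpen_U (S : Finset ℕ) (γ r : ℕ → ℝ) : IsOpen (U S γ r) :=
  isOpen_biUnion fun _ _ => isOpen_iUnion fun _ => isOpen_Ioo

theorem union_ge {N : ℕ} (hN : 0 < N) (S : Finset ℕ) (hS : ∀ q ∈ S, q ∣ N) (γ r : ℕ → ℝ)
    (hr0 : ∀ q ∈ S, 0 ≤ r q) (hr : ∀ q ∈ S, 2 * r q ≤ 1 / N) (L : ℕ) (w : ℕ → ℝ)
    (hw : ∀ q ∈ S, 0 ≤ w q)
    (hcount : ∀ T ⊆ S, ∀ c : ℕ → ℤ, ∑ q ∈ T, w q ≤
      (((Finset.range L).filter
        (fun n : ℕ => ∃ q ∈ T, ((N / q : ℕ) : ℤ) ∣ (n : ℤ) - c q)).card : ℝ))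
    (a : ℝ) :
    ENNReal.ofReal (∑ q ∈ S, w q * (2 * r q)) ≤ volume (U S γ r ∩ Ioc a (a + L / N)) := by
  classical
  have hNR : (0 : ℝ) < N := by exact_mod_cast hN
  set h : ℝ := 1 / N with hh
  have hpos : 0 < h := by positivity
  let A : ℕ → Set ℝ := fun q => ⋃ n : ℤ, ⋃ j : ℤ,
    Ioo ((γ q + j) / q - n * h - r q) ((γ q + j) / q - n * h + r q)
  have hAmem : ∀ q y, y ∈ A q ↔ ∃ n j : ℤ,
      (γ q + j) / q - r q < y + n * h ∧ y + n * h < (γ q + j) / q + r q := by
    intro q y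
    simp only [A, Set.mem_iUnion, Set.mem_Ioo]
    constructor <;> rintro ⟨n, j, h1, h2⟩ <;> exact ⟨n, j, by linarith, by linarith⟩
  have hAmeas : ∀ q, MeasurableSet (A q) := fun q =>
    (isOpen_iUnion fun _ => isOpen_iUnion fun _ => isOpen_Ioo).measurableSet
  have hAvol : ∀ q ∈ S, ENNReal.ofReal (2 * r q) ≤ volume (A q ∩ Ioc a (a + h)) := by
    intro q hq
    have hinv : ∀ g : AddSubgroup.zmultiples h, (fun x : ℝ => g +ᵥ x) ⁻¹' A q = A q := by
      rintro ⟨g, hg⟩
      obtain ⟨k, rfl⟩ := AddSubgroup.mem_zmultiples_iff.mp hg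
      ext x
      simp only [Set.mem_preimage, hAmem, AddSubgroup.vadd_def, vadd_eq_add, zsmul_eq_mul]
      constructor
      · rintro ⟨n, j, h1, h2⟩
        exact ⟨n + k, j, by push_cast; linarith, by push_cast; linarith⟩
      · rintro ⟨n, j, h1, h2⟩
        exact ⟨n - k, j, by push_cast; linarith, by push_cast; linarith⟩
    rw [(isAddFundamentalDomain_Ioc hpos a volume).measure_set_eq
      (isAddFundamentalDomain_Ioc hpos (γ q / q - r q) volume) (hAmeas q) hinv]
    refine le_trans ?_ (measure_mono (s := Ioo (γ q / q - r q) (γ q / q + r q)) ?_)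
    · rw [Real.volume_Ioo]
      exact ENNReal.ofReal_le_ofReal (by linarith)
    · intro x hx
      refine ⟨(hAmem q x).mpr ⟨0, 0, by simpa using hx.1, by simpa using hx.2⟩, hx.1, ?_⟩
      have := hr q hq
      linarith [hx.2]
  let E : ℕ → Set ℝ := fun n => (fun y : ℝ => y + n * h) ⁻¹' U S γ r ∩ Ioc a (a + h)
  have hEmeas : ∀ n, MeasurableSet (E n) := fun n =>
    ((isOpen_U S γ r).preimage (by fun_prop)).measurableSet.inter measurableSet_Ioc
  have hpoint : ∀ y, ∑ q ∈ S, (A q ∩ Ioc a (a + h)).indicator (fun _ => ENNReal.ofReal (w q)) y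
      ≤ ∑ n ∈ Finset.range L, (E n).indicator (fun _ => (1 : ENNReal)) y := by
    intro y
    by_cases hy : y ∈ Ioc a (a + h)
    · set T := S.filter (fun q => y ∈ A q)
      have hc : ∀ q, ∃ n : ℤ, y ∈ A q →
          ∃ j : ℤ, (γ q + j) / q - r q < y + n * h ∧ y + n * h < (γ q + j) / q + r q := by
        intro q
        by_cases hq : y ∈ A q
        · obtain ⟨n, j, h1⟩ := (hAmem q y).mp hq; exact ⟨n, fun _ => ⟨j, h1⟩⟩
        · exact ⟨0, fun h => absurd h hq⟩
      choose c hc using hc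
      have hlhs : ∑ q ∈ S, (A q ∩ Ioc a (a + h)).indicator (fun _ => ENNReal.ofReal (w q)) y
          = ENNReal.ofReal (∑ q ∈ T, w q) := by
        rw [ENNReal.ofReal_sum_of_nonneg (fun q hq => hw q (Finset.mem_filter.mp hq).1),
          Finset.sum_filter]
        refine Finset.sum_congr rfl fun q _ => ?_
        by_cases hq : y ∈ A q
        · rw [if_pos hq]
          exact Set.indicator_of_mem (show y ∈ A q ∩ Ioc a (a + h) from ⟨hq, hy⟩) _
        · rw [Set.indicator_of_notMem (fun h' => hq h'.1), if_neg hq]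
      rw [hlhs]
      refine (ENNReal.ofReal_le_ofReal (hcount T (Finset.filter_subset _ _) c)).trans ?_
      rw [ENNReal.ofReal_natCast]
      refine le_of_le_of_eq (b := ∑ n ∈ (Finset.range L).filter
        (fun n : ℕ => ∃ q ∈ T, ((N / q : ℕ) : ℤ) ∣ (n : ℤ) - c q),
          (E n).indicator (fun _ => (1 : ENNReal)) y) ?_ rfl |>.trans
        (Finset.sum_le_sum_of_subset (Finset.filter_subset _ _))
      rw [Finset.card_eq_sum_ones, Nat.cast_sum]
      refine Finset.sum_le_sum fun n hn => ?_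
      obtain ⟨q, hqT, t, ht⟩ := (Finset.mem_filter.mp hn).2
      obtain ⟨hqS, hqA⟩ := Finset.mem_filter.mp hqT
      obtain ⟨j, h1, h2⟩ := hc q hqA
      have hmem : y ∈ E n := by
        refine ⟨?_, hy⟩
        simp only [Set.mem_preimage, U, Set.mem_iUnion, Set.mem_Ioo]
        refine ⟨q, hqS, j + t, ?_⟩
        have hq0 : (q : ℝ) ≠ 0 :=
          Nat.cast_ne_zero.mpr (Nat.pos_of_dvd_of_pos (hS q hqS) hN).ne'
        have hd : ((N / q : ℕ) : ℝ) * h = 1 / q := by
          rw [Nat.cast_div (hS q hqS) hq0, hh]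
          field_simp
        have hn' : (n : ℝ) = c q + ((N / q : ℕ) : ℝ) * t := by
          have h' : ((n : ℤ) : ℝ) = ((c q + ((N / q : ℕ) : ℤ) * t : ℤ) : ℝ) :=
            congrArg _ (by linarith [ht])
          simpa only [Int.cast_natCast, Int.cast_add, Int.cast_mul] using h'
        have hsh : (γ q + ((j + t : ℤ) : ℝ)) / q = (γ q + j) / q + t * (1 / q) := by
          push_cast; ring
        rw [hsh, hn', ← hd]
        constructor <;> linarith
      rw [Set.indicator_of_mem hmem]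
      simp
    · refine le_of_eq_of_le (Finset.sum_eq_zero fun q _ => ?_) bot_le
      exact Set.indicator_of_notMem (fun h' => hy h'.2) _
  calc ENNReal.ofReal (∑ q ∈ S, w q * (2 * r q))
      = ∑ q ∈ S, ENNReal.ofReal (w q) * ENNReal.ofReal (2 * r q) := by
        rw [ENNReal.ofReal_sum_of_nonneg
          (fun q hq => mul_nonneg (hw q hq) (by linarith [hr0 q hq]))]
        exact Finset.sum_congr rfl fun q hq => ENNReal.ofReal_mul (hw q hq)
    _ ≤ ∑ q ∈ S, ENNReal.ofReal (w q) * volume (A q ∩ Ioc a (a + h)) :=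
        Finset.sum_le_sum fun q hq => by gcongr; exact hAvol q hq
    _ = ∫⁻ y, ∑ q ∈ S,
          (A q ∩ Ioc a (a + h)).indicator (fun _ => ENNReal.ofReal (w q)) y := by
        rw [lintegral_finsetSum _
          (fun q _ => measurable_const.indicator ((hAmeas q).inter measurableSet_Ioc))]
        exact Finset.sum_congr rfl fun q _ =>
          (lintegral_indicator_const ((hAmeas q).inter measurableSet_Ioc) _).symm
    _ ≤ ∫⁻ y, ∑ n ∈ Finset.range L, (E n).indicator (fun _ => (1 : ENNReal)) y :=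
        lintegral_mono hpoint
    _ = ∑ n ∈ Finset.range L, volume (E n) := by
        rw [lintegral_finsetSum _ (fun n _ => measurable_const.indicator (hEmeas n))]
        exact Finset.sum_congr rfl fun n _ => by
          rw [lintegral_indicator_const (hEmeas n), one_mul]
    _ = ∑ n ∈ Finset.range L, volume (U S γ r ∩ Ioc (a + n * h) (a + (n + 1) * h)) := by
        refine Finset.sum_congr rfl fun n _ => ?_
        rw [← measure_preimage_add_right volume ((n : ℝ) * h)
          (U S γ r ∩ Ioc (a + n * h) (a + (n + 1) * h))]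
        congr 1
        ext y
        simp only [E, Set.mem_inter_iff, Set.mem_preimage, Set.mem_Ioc]
        constructor <;> rintro ⟨h0, h1, h2⟩ <;> exact ⟨h0, by linarith, by linarith⟩
    _ = volume (⋃ n ∈ Finset.range L, U S γ r ∩ Ioc (a + n * h) (a + (n + 1) * h)) := by
        refine (measure_biUnion_finset ?_
          (fun n _ => (isOpen_U S γ r).measurableSet.inter measurableSet_Ioc)).symm
        intro m _ n _ hmn
        refine Disjoint.mono inf_le_right inf_le_right ?_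
        rw [Set.Ioc_disjoint_Ioc]
        rcases lt_or_gt_of_ne hmn with h1 | h1
        · have h2 : (m : ℝ) + 1 ≤ n := by exact_mod_cast h1
          exact (min_le_left _ _).trans (le_max_of_le_right (by nlinarith))
        · have h2 : (n : ℝ) + 1 ≤ m := by exact_mod_cast h1
          exact (min_le_right _ _).trans (le_max_of_le_left (by nlinarith))
    _ ≤ _ := by
        refine measure_mono (Set.iUnion₂_subset fun n hn => Set.inter_subset_inter_right _ ?_)
        have h1 : (n : ℝ) + 1 ≤ L := by exact_mod_cast Finset.mem_range.mp hn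
        refine Set.Ioc_subset_Ioc (le_add_of_nonneg_right (by positivity)) ?_
        rw [show (L : ℝ) / N = L * h by rw [hh]; ring]
        nlinarith

/-- Blocks of `q` with a large largest prime. -/
theorem union_ge_top {N : ℕ} (hN : 0 < N) (S : Finset ℕ) (hS : ∀ q ∈ S, q ∣ N) (γ r : ℕ → ℝ)
    (hr0 : ∀ q ∈ S, 0 ≤ r q) (hr : ∀ q ∈ S, 2 * r q ≤ 1 / N) {ℓ : ℝ} (hℓ0 : 0 < ℓ) (hℓ1 : ℓ ≤ 1)
    (htop : ∀ q ∈ S, 16 / ℓ ≤ (top q : ℝ)) (a : ℝ) :
    ENNReal.ofReal (ℓ / 2 * ∑ q ∈ S, (q.totient : ℝ) * r q)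
      ≤ volume (U S γ r ∩ Ioc a (a + ℓ)) := by
  classical
  have : NeZero N := ⟨hN.ne'⟩
  have hNR : (0 : ℝ) < N := by exact_mod_cast hN
  set L := ⌊ℓ * N⌋₊ with hL
  have hL1 : (L : ℝ) ≤ ℓ * N := Nat.floor_le (by positivity)
  have hL2 : ℓ * N < L + 1 := Nat.lt_floor_add_one _
  have hLN : (L : ℝ) ≤ N := hL1.trans (by nlinarith)
  have hLd : (L : ℝ) / N ≤ ℓ := by rw [div_le_iff₀ hNR]; exact hL1
  refine le_trans ?_ (le_trans (union_ge hN S hS γ r hr0 hr L
    (fun q => (q.totient : ℝ) * (ℓ / 4)) (fun q _ => by positivity) ?_ a)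
    (measure_mono (Set.inter_subset_inter_right _ (Set.Ioc_subset_Ioc le_rfl (by linarith)))))
  · refine le_of_eq (congrArg _ ?_)
    rw [Finset.mul_sum]
    exact Finset.sum_congr rfl fun q _ => by ring
  intro T hT c
  obtain ⟨F, hsub, hdisj, -, hloc⟩ := good_all N hN T c (fun q hq => hS q (hT hq))
  set R := (Finset.range L).filter
    (fun n : ℕ => ∃ q ∈ T, ((N / q : ℕ) : ℤ) ∣ (n : ℤ) - c q)
  have hone : ∀ q ∈ T, (q.totient : ℝ) * (ℓ / 4)
      ≤ ((hits (F q) 0 1 0 (L : ℝ)).card : ℝ) := by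
    intro q hq
    have htq := htop q (hT hq)
    have h16 : (16 : ℝ) ≤ (top q : ℝ) := le_trans (by rw [le_div_iff₀ hℓ0]; linarith) htq
    have hq1 : 1 < q := by
      by_contra hle
      interval_cases q <;> norm_num [top] at h16
    refine le_trans ?_ (hloc q hq hq1 0 1 isCoprime_one_left 0 L (Nat.cast_nonneg _) hLN)
    refine mul_le_mul_of_nonneg_left ?_ (Nat.cast_nonneg _)
    have htle : top q ≤ N := Finset.sup_le fun p hp =>
      (Nat.le_of_mem_primeFactors hp).trans (Nat.le_of_dvd hN (hS q (hT hq)))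
    have h1 : 4 / (top q : ℝ) ≤ ℓ / 4 := by
      rw [div_le_iff₀ (by linarith)]; rw [div_le_iff₀ hℓ0] at htq; nlinarith
    have h2 : 16 ≤ ℓ * N := by
      rw [div_le_iff₀ hℓ0] at htq
      have : (top q : ℝ) ≤ N := by exact_mod_cast htle
      nlinarith
    have h3 : ℓ / 2 ≤ (L : ℝ) / N := by rw [le_div_iff₀ hNR]; nlinarith
    linarith
  refine (Finset.sum_le_sum hone).trans ?_
  rw [← Nat.cast_sum, Nat.cast_le, ← Finset.card_biUnion]
  · refine Finset.card_le_card_of_injOn Int.toNat ?_ ?_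
    · intro k hk
      simp only [Finset.mem_coe, Finset.mem_biUnion, hits, Finset.mem_filter, mem_Ico_ceil] at hk
      obtain ⟨q, hq, ⟨h1, h2⟩, h3⟩ := hk
      have hk0 : 0 ≤ k := by exact_mod_cast h1
      simp only [zero_add] at h2 h3
      have hk2 : k < (L : ℤ) := by exact_mod_cast h2
      rw [one_mul] at h3
      simp only [R, Finset.mem_coe, Finset.mem_filter, Finset.mem_range]
      refine ⟨by omega, q, hq, ?_⟩
      rw [Int.toNat_of_nonneg hk0]
      exact hsub q hq k h3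
    · intro k hk k' hk' h
      simp only [Finset.mem_coe, Finset.mem_biUnion, hits, Finset.mem_filter, mem_Ico_ceil] at hk hk'
      obtain ⟨_, _, ⟨h1, _⟩, _⟩ := hk
      obtain ⟨_, _, ⟨h1', _⟩, _⟩ := hk'
      have hk0 : 0 ≤ k := by exact_mod_cast h1
      have hk0' : 0 ≤ k' := by exact_mod_cast h1'
      omega
  · intro q hq q' hq' hne
    rw [Function.onFun, Finset.disjoint_left]
    intro k hk hk'
    simp only [hits, Finset.mem_filter] at hk hk'
    exact Finset.disjoint_left.mp (hdisj q hq q' hq' hne) hk.2 hk'.2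

theorem totient_mul_le (K m : ℕ) : (K * m).totient ≤ K * m.totient := by
  induction K using Nat.recOnMul generalizing m with
  | zero => simp
  | one => simp
  | prime p hp =>
    by_cases h : p ∣ m
    · rw [Nat.totient_mul_of_prime_of_dvd hp h]
    · rw [Nat.totient_mul ((Nat.Prime.coprime_iff_not_dvd hp).mpr h), Nat.totient_prime hp]
      exact Nat.mul_le_mul_right _ (Nat.sub_le p 1)
  | mul a b ha hb =>
    rw [mul_assoc a b m, mul_assoc a b]
    exact (ha (b * m)).trans (Nat.mul_le_mul_left a (hb m))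

/-- Blocks of multiples of `K`, on intervals of length `1 / K`. -/
theorem union_ge_dvd {N : ℕ} (hN : 0 < N) {K : ℕ} (hK : 0 < K) (hKN : K ∣ N) (S : Finset ℕ)
    (hS : ∀ q ∈ S, q ∣ N) (hSK : ∀ q ∈ S, K ∣ q) (γ r : ℕ → ℝ)
    (hr0 : ∀ q ∈ S, 0 ≤ r q) (hr : ∀ q ∈ S, 2 * r q ≤ 1 / N) (a : ℝ) :
    ENNReal.ofReal (2 / K * ∑ q ∈ S, (q.totient : ℝ) * r q)
      ≤ volume (U S γ r ∩ Ioc a (a + 1 / K)) := by
  classical
  obtain ⟨L, rfl⟩ := hKN
  have hL : 0 < L := Nat.pos_of_mul_pos_left hN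
  have : NeZero L := ⟨hL.ne'⟩
  have hdiv : (L : ℝ) / ((K * L : ℕ) : ℝ) = 1 / (K : ℝ) := by
    push_cast; field_simp
  refine le_trans ?_ (le_of_le_of_eq (union_ge hN S hS γ r hr0 hr L
    (fun q => (q.totient : ℝ) / K) (fun q _ => by positivity) ?_ a) (by rw [hdiv]))
  · refine le_of_eq (congrArg _ ?_)
    rw [Finset.mul_sum]
    exact Finset.sum_congr rfl fun q _ => by ring
  intro T hT c
  obtain ⟨F, hsub, hdisj, hcard, -⟩ := good_all L hL (T.image (· / K)) (fun q => c (K * q)) (by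
    intro q' hq'
    obtain ⟨q, hq, rfl⟩ := Finset.mem_image.mp hq'
    obtain ⟨m, rfl⟩ := hSK q (hT hq)
    rw [Nat.mul_div_cancel_left _ hK]
    exact Nat.dvd_of_mul_dvd_mul_left hK (hS _ (hT hq)))
  set R := (Finset.range L).filter
    (fun n : ℕ => ∃ q ∈ T, ((K * L / q : ℕ) : ℤ) ∣ (n : ℤ) - c q)
  have hone : ∀ q ∈ T, (q.totient : ℝ) / K ≤ ((F (q / K)).card : ℝ) := by
    intro q hq
    rw [hcard _ (Finset.mem_image.mpr ⟨q, hq, rfl⟩), div_le_iff₀ (by exact_mod_cast hK)]
    obtain ⟨m, rfl⟩ := hSK q (hT hq)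
    rw [Nat.mul_div_cancel_left _ hK]
    exact_mod_cast (totient_mul_le K m).trans (Nat.mul_comm _ _).le
  refine (Finset.sum_le_sum hone).trans ?_
  rw [← Nat.cast_sum, Nat.cast_le, ← Finset.card_biUnion]
  · refine Finset.card_le_card_of_injOn ZMod.val ?_ (ZMod.val_injective L).injOn
    intro z hz
    simp only [Finset.mem_coe, Finset.mem_biUnion] at hz
    obtain ⟨q, hq, hz⟩ := hz
    simp only [R, Finset.mem_coe, Finset.mem_filter, Finset.mem_range]
    refine ⟨ZMod.val_lt z, q, hq, ?_⟩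
    obtain ⟨m, rfl⟩ := hSK q (hT hq)
    have := hsub (K * m / K) (Finset.mem_image.mpr ⟨_, hq, rfl⟩) (z.val : ℤ) (by simpa using hz)
    rw [Nat.mul_div_cancel_left _ hK] at this
    rwa [Nat.mul_div_mul_left _ _ hK]
  · intro q hq q' hq' hne
    refine hdisj _ (Finset.mem_image.mpr ⟨q, hq, rfl⟩) _ (Finset.mem_image.mpr ⟨q', hq', rfl⟩) ?_
    intro h
    obtain ⟨m, rfl⟩ := hSK q (hT hq)
    obtain ⟨m', rfl⟩ := hSK q' (hT hq')
    rw [Nat.mul_div_cancel_left _ hK, Nat.mul_div_cancel_left _ hK] at h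
    exact hne (by rw [h])

/-- The `x` with `|q x - a - γ q| < ψ q` for some integer `a`, for infinitely many `q`. -/
def W (γ ψ : ℕ → ℝ) : Set ℝ :=
  {x | {q : ℕ | 0 < q ∧ ∃ a : ℤ, |(q : ℝ) * x - a - γ q| < ψ q}.Infinite}

theorem null_compl_of_lower {Z : Set ℝ} (hZ : MeasurableSet Z) {c : ℝ} (hc : 0 < c)
    (h : ∀ a ℓ : ℝ, 0 < ℓ → ℓ ≤ 1 → ENNReal.ofReal (c * ℓ) ≤ volume (Z ∩ Ioc a (a + ℓ))) :
    volume Zᶜ = 0 := by
  set c' := min c (1 / 2) with hc'
  have hc0 : 0 < c' := lt_min hc one_half_pos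
  have hc1 : c' ≤ 1 / 2 := min_le_right _ _
  have hae := Besicovitch.ae_tendsto_measure_inter_div volume Zᶜ
  rw [ae_restrict_iff' hZ.compl] at hae
  refine measure_mono_null (fun x hx => ?_) (ae_iff.mp hae)
  intro hlim
  have hev : ∀ᶠ r in 𝓝[>] (0 : ℝ),
      volume (Zᶜ ∩ Metric.closedBall x r) / volume (Metric.closedBall x r)
        ≤ ENNReal.ofReal (1 - c') := by
    filter_upwards [Ioo_mem_nhdsGT (show (0 : ℝ) < 1 / 2 by norm_num)] with r hr
    have hb : Metric.closedBall x r = Icc (x - r) (x + r) := Real.closedBall_eq_Icc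
    have hvol : volume (Metric.closedBall x r) = ENNReal.ofReal (2 * r) := Real.volume_closedBall x r
    rw [hvol]
    refine ENNReal.div_le_of_le_mul ?_
    rw [← ENNReal.ofReal_mul (by linarith)]
    have hsum := measure_inter_add_sdiff (μ := volume) (Metric.closedBall x r) hZ
    have hlow : ENNReal.ofReal (c' * (2 * r)) ≤ volume (Metric.closedBall x r ∩ Z) := by
      refine le_trans (ENNReal.ofReal_le_ofReal ?_) (le_trans (h (x - r) (2 * r) (by linarith [hr.1])
        (by linarith [hr.2])) (measure_mono ?_))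
      · exact mul_le_mul_of_nonneg_right (min_le_left _ _) (by linarith [hr.1])
      · rw [hb, show x - r + 2 * r = x + r by ring]
        exact fun y hy => ⟨Ioc_subset_Icc_self hy.2, hy.1⟩
    have hdiff : Zᶜ ∩ Metric.closedBall x r = Metric.closedBall x r \ Z := by
      rw [Set.sdiff_eq, Set.inter_comm]
    rw [hdiff]
    rw [hvol] at hsum
    have h2 : ENNReal.ofReal (c' * (2 * r)) + volume (Metric.closedBall x r \ Z)
        ≤ ENNReal.ofReal (2 * r) := hsum ▸ add_le_add_left hlow _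
    calc volume (Metric.closedBall x r \ Z)
        ≤ ENNReal.ofReal (2 * r) - ENNReal.ofReal (c' * (2 * r)) :=
          ENNReal.le_sub_of_add_le_left ENNReal.ofReal_ne_top h2
      _ = ENNReal.ofReal ((1 - c') * (2 * r)) := by
          rw [← ENNReal.ofReal_sub _ (by have := hr.1; positivity)]; congr 1; ring
  have h1 := le_of_tendsto (hlim hx) hev
  have h2 : ENNReal.ofReal (1 - c') < 1 := by
    rw [ENNReal.ofReal_lt_one]; linarith
  exact absurd h1 (not_le.mpr h2)

theorem full_measure (γ ψ : ℕ → ℝ) (hψ : ∀ q, 0 ≤ ψ q) (S : ℕ → Finset ℕ) (N : ℕ → ℕ)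
    (hN : ∀ k, 0 < N k) (hdvd : ∀ k, ∀ q ∈ S k, q ∣ N k)
    (hlarge : ∀ m : ℕ, ∀ᶠ k in atTop, ∀ q ∈ S k, m < q)
    (δ : ℝ) (hδ : 0 < δ)
    (hsum : ∃ᶠ k in atTop,
      δ ≤ ∑ q ∈ S k, (q.totient : ℝ) * min (ψ q / q) (1 / (2 * (N k : ℝ)))) :
    volume (W γ ψ)ᶜ = 0 := by
  classical
  let r : ℕ → ℕ → ℝ := fun k q => min (ψ q / q) (1 / (2 * (N k : ℝ)))
  have hr0 : ∀ k q, 0 ≤ r k q := fun k q =>
    le_min (div_nonneg (hψ q) (Nat.cast_nonneg q)) (by positivity)
  have hr : ∀ k q, 2 * r k q ≤ 1 / (N k : ℝ) := by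
    intro k q
    have := min_le_right (ψ q / q) (1 / (2 * (N k : ℝ)))
    rw [show (1 : ℝ) / (N k : ℝ) = 2 * (1 / (2 * (N k : ℝ))) by ring]
    simp only [r]
    linarith
  let V : ℕ → Set ℝ := fun n => ⋃ k ≥ n, U (S k) γ (r k)
  have hVmeas : ∀ n, MeasurableSet (V n) := fun n =>
    (isOpen_biUnion fun k _ => isOpen_U _ _ _).measurableSet
  set Z := ⋂ n, V n with hZdef
  have hZW : Z ⊆ W γ ψ := by
    intro x hx
    refine Set.infinite_of_forall_exists_gt fun m => ?_
    obtain ⟨n, hn⟩ := eventually_atTop.mp (hlarge m)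
    have hx' := Set.mem_iInter.mp hx n
    simp only [V, U, Set.mem_iUnion, Set.mem_Ioo] at hx'
    obtain ⟨k, hk, q, hq, j, h1, h2⟩ := hx'
    have hq0 : 0 < q := Nat.pos_of_dvd_of_pos (hdvd k q hq) (hN k)
    have hqR : (0 : ℝ) < q := by exact_mod_cast hq0
    refine ⟨q, ⟨hq0, j, ?_⟩, hn k hk q hq⟩
    have hle : r k q ≤ ψ q / q := min_le_left _ _
    rw [le_div_iff₀ hqR] at hle
    have e1 : (q : ℝ) * ((γ q + j) / q) = γ q + j := by field_simp
    rw [abs_lt]
    constructor <;> nlinarith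
  have hfreq : ∀ (a ℓ c : ℝ), (∃ᶠ k in atTop,
      ENNReal.ofReal c ≤ volume (U (S k) γ (r k) ∩ Ioc a (a + ℓ))) →
      ENNReal.ofReal c ≤ volume (Z ∩ Ioc a (a + ℓ)) := by
    intro a ℓ c hf
    rw [hZdef, Set.iInter_inter]
    have hanti : Antitone (fun n => V n ∩ Ioc a (a + ℓ)) := fun m n hmn =>
      Set.inter_subset_inter_left _ (Set.biUnion_subset_biUnion_left fun k hk => le_trans hmn hk)
    rw [hanti.measure_iInter (fun n => ((hVmeas n).inter measurableSet_Ioc).nullMeasurableSet)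
      ⟨0, ne_top_of_le_ne_top (by simp) (measure_mono Set.inter_subset_right)⟩]
    refine le_iInf fun n => ?_
    obtain ⟨k, hk, hle⟩ := frequently_atTop.mp hf n
    exact hle.trans (measure_mono (Set.inter_subset_inter_left _
      (Set.subset_biUnion_of_mem (u := fun k => U (S k) γ (r k)) hk)))
  suffices ∃ c : ℝ, 0 < c ∧ ∀ a ℓ : ℝ, 0 < ℓ → ℓ ≤ 1 →
      ENNReal.ofReal (c * ℓ) ≤ volume (Z ∩ Ioc a (a + ℓ)) by
    obtain ⟨c, hc, hlow⟩ := this
    exact measure_mono_null (Set.compl_subset_compl.mpr hZW)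
      (null_compl_of_lower (MeasurableSet.iInter hVmeas) hc hlow)
  by_cases hA : ∀ T : ℕ, ∃ᶠ k in atTop,
      δ / 2 ≤ ∑ q ∈ (S k).filter (fun q => T ≤ top q), (q.totient : ℝ) * r k q
  · refine ⟨δ / 4, by positivity, fun a ℓ hℓ hℓ1 => hfreq a ℓ _ ?_⟩
    refine (hA ⌈16 / ℓ⌉₊).mono fun k hk => ?_
    refine le_trans (le_trans ?_ (union_ge_top (hN k) _
      (fun q hq => hdvd k q (Finset.mem_filter.mp hq).1) γ (r k) (fun q _ => hr0 k q)
      (fun q _ => hr k q) hℓ hℓ1
      (fun q hq => le_trans (Nat.le_ceil _) (by exact_mod_cast (Finset.mem_filter.mp hq).2)) a))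
      (measure_mono (Set.inter_subset_inter_left _ (U_mono (Finset.filter_subset _ _) γ (r k))))
    exact ENNReal.ofReal_le_ofReal (by nlinarith)
  · push Not at hA
    obtain ⟨T, hT⟩ := hA
    have hp : ∃ p, p.Prime ∧ ∀ e : ℕ, ∃ᶠ k in atTop,
        δ / (2 * (T + 1)) ≤ ∑ q ∈ (S k).filter (fun q => p ^ e ∣ q), (q.totient : ℝ) * r k q := by
      by_contra hno
      push Not at hno
      have hno' : ∀ p : ℕ, ∃ e : ℕ, p.Prime → ∀ᶠ k in atTop,
          ∑ q ∈ (S k).filter (fun q => p ^ e ∣ q), (q.totient : ℝ) * r k q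
            < δ / (2 * (T + 1)) := by
        intro p
        by_cases hp : p.Prime
        · obtain ⟨e, he⟩ := hno p hp; exact ⟨e, fun _ => he⟩
        · exact ⟨0, fun h => absurd h hp⟩
      choose e he using hno'
      set P := (Finset.range T).filter Nat.Prime
      have hall : ∀ᶠ k in atTop, ∀ p ∈ P,
          ∑ q ∈ (S k).filter (fun q => p ^ e p ∣ q), (q.totient : ℝ) * r k q
            < δ / (2 * (T + 1)) :=
        (eventually_all_finset P).mpr fun p hp => he p (Finset.mem_filter.mp hp).2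
      obtain ⟨k, hk1, hk2, hk3, hk4⟩ :=
        (hsum.and_eventually (hT.and (hall.and (hlarge (∏ p ∈ P, p ^ e p))))).exists
      have hsplit : ∀ q ∈ (S k).filter (fun q => ¬ T ≤ top q), ∃ p ∈ P, p ^ e p ∣ q := by
        intro q hq
        obtain ⟨hqS, hqT⟩ := Finset.mem_filter.mp hq
        have hbig := hk4 q hqS
        have hq0 : q ≠ 0 := by omega
        by_contra hnone
        push Not at hnone
        have hsubP : q.primeFactors ⊆ P := fun p hp => Finset.mem_filter.mpr
          ⟨Finset.mem_range.mpr (lt_of_le_of_lt (Finset.le_sup (f := id) hp) (not_le.mp hqT)),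
            Nat.prime_of_mem_primeFactors hp⟩
        have hqle : q ≤ ∏ p ∈ P, p ^ e p := by
          calc q = ∏ p ∈ q.primeFactors, p ^ q.factorization p :=
                (Nat.prod_factorization_pow_eq_self hq0).symm
            _ ≤ ∏ p ∈ q.primeFactors, p ^ e p := by
                refine Finset.prod_le_prod' fun p hp => ?_
                have hpp := Nat.prime_of_mem_primeFactors hp
                refine Nat.pow_le_pow_right hpp.pos ?_
                by_contra hlt
                exact hnone p (hsubP hp)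
                  ((hpp.pow_dvd_iff_le_factorization hq0).mpr (not_le.mp hlt).le)
            _ ≤ ∏ p ∈ P, p ^ e p :=
                Finset.prod_le_prod_of_subset_of_one_le' hsubP fun p hp _ =>
                  Nat.one_le_pow _ _ (Finset.mem_filter.mp hp).2.pos
        omega
      have hb : ∑ q ∈ (S k).filter (fun q => ¬ T ≤ top q), (q.totient : ℝ) * r k q
          ≤ ∑ p ∈ P, ∑ q ∈ (S k).filter (fun q => p ^ e p ∣ q), (q.totient : ℝ) * r k q := by
        have hnn : ∀ q, 0 ≤ (q.totient : ℝ) * r k q :=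
          fun q => mul_nonneg (Nat.cast_nonneg _) (hr0 k q)
        simp only [Finset.sum_filter]
        rw [Finset.sum_comm]
        refine Finset.sum_le_sum fun q hq => ?_
        by_cases hqT : T ≤ top q
        · rw [if_neg (not_not_intro hqT)]
          exact Finset.sum_nonneg fun p _ => by split <;> simp [hnn]
        · rw [if_pos hqT]
          obtain ⟨p, hp, hpd⟩ := hsplit q (Finset.mem_filter.mpr ⟨hq, hqT⟩)
          refine le_trans (le_of_eq (if_pos hpd).symm) (Finset.single_le_sum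
            (f := fun p => if p ^ e p ∣ q then (q.totient : ℝ) * r k q else 0)
            (fun p _ => by split <;> simp [hnn]) hp)
      have hb2 : ∑ p ∈ P, ∑ q ∈ (S k).filter (fun q => p ^ e p ∣ q), (q.totient : ℝ) * r k q
          ≤ δ / 2 := by
        refine (Finset.sum_le_sum fun p hp => (hk3 p hp).le).trans ?_
        rw [Finset.sum_const, nsmul_eq_mul]
        have hcard : (P.card : ℝ) ≤ T := by
          exact_mod_cast (Finset.card_filter_le _ _).trans (Finset.card_range T).le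
        rw [mul_div, div_le_iff₀ (by positivity)]
        nlinarith
      have := Finset.sum_filter_add_sum_filter_not (S k) (fun q => T ≤ top q)
        (fun q => (q.totient : ℝ) * r k q)
      linarith
    obtain ⟨p, hp, hfp⟩ := hp
    set δ' := δ / (2 * ((T : ℝ) + 1)) with hδ'
    have hδ'0 : 0 < δ' := by positivity
    have hp0 : (0 : ℝ) < p := by exact_mod_cast hp.pos
    refine ⟨2 * δ' / p, by positivity, fun a ℓ hℓ hℓ1 => hfreq a ℓ _ ?_⟩
    obtain ⟨n, hn1, hn2⟩ := exists_nat_pow_near ((one_le_div hℓ).mpr hℓ1)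
      (show (1 : ℝ) < p by exact_mod_cast hp.one_lt)
    refine (hfp (n + 1)).mono fun k hk => ?_
    rcases ((S k).filter (fun q => p ^ (n + 1) ∣ q)).eq_empty_or_nonempty with he | ⟨q0, hq0⟩
    · rw [he, Finset.sum_empty] at hk; linarith
    have hKN : p ^ (n + 1) ∣ N k :=
      (Finset.mem_filter.mp hq0).2.trans (hdvd k q0 (Finset.mem_filter.mp hq0).1)
    have hKpos : (0 : ℝ) < ((p ^ (n + 1) : ℕ) : ℝ) := by
      exact_mod_cast pow_pos hp.pos (n + 1)
    rw [le_div_iff₀ hℓ] at hn1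
    rw [div_lt_iff₀ hℓ] at hn2
    refine le_trans (le_trans ?_ (union_ge_dvd (hN k) (pow_pos hp.pos _) hKN _
      (fun q hq => hdvd k q (Finset.mem_filter.mp hq).1) (fun q hq => (Finset.mem_filter.mp hq).2)
      γ (r k) (fun q _ => hr0 k q) (fun q _ => hr k q) a))
      (measure_mono (Set.inter_subset_inter (U_mono (Finset.filter_subset _ _) γ (r k))
        (Set.Ioc_subset_Ioc le_rfl ?_)))
    · refine ENNReal.ofReal_le_ofReal ?_
      refine le_trans ?_ (mul_le_mul_of_nonneg_left hk (by positivity))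
      push_cast
      rw [div_mul_eq_mul_div, div_le_iff₀ hp0]
      rw [show 2 / (p : ℝ) ^ (n + 1) * δ' * p = 2 * δ' * (1 / (p : ℝ) ^ n) by
        rw [pow_succ]; field_simp]
      have h1 : ℓ ≤ 1 / (p : ℝ) ^ n := by rw [le_div_iff₀ (by positivity)]; linarith
      exact mul_le_mul_of_nonneg_left h1 (by positivity)
    · have h1 : 1 / ((p ^ (n + 1) : ℕ) : ℝ) ≤ ℓ := by
        rw [div_le_iff₀ hKpos]; push_cast; linarith
      linarith

end Vale.Agent.P028
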