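import Mathlib

/-!
A Rogers-type theorem with local equidistribution. In `ZMod N` choose for every divisor `q ∈ S`
a residue class `c q` modulo `N / q` (a coset of the subgroup of order `q`). There are pairwise
disjoint subsets `F q` of these classes with `φ q` elements each; moreover, if `P` is the largest
prime of `q`, every affine progression of length `L ≤ N` meets `F q` in at least
`φ q * (L / N - 4 / P)` points.
-/

open Finset

namespace Vale.Agent.P028

/-- Largest prime factor (0 for `q ≤ 1`). -/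
def top (q : ℕ) : ℕ := q.primeFactors.sup id

/-- Parameters `k ∈ [s, s + L)` with `b + v k` in `F`. -/
noncomputable def hits {N : ℕ} (F : Finset (ZMod N)) (b v : ℤ) (s L : ℝ) : Finset ℤ :=
  (Finset.Ico ⌈s⌉ ⌈s + L⌉).filter (fun k => ((b + v * k : ℤ) : ZMod N) ∈ F)

def Good (N : ℕ) (S : Finset ℕ) (c : ℕ → ℤ) : Prop :=
  ∃ F : ℕ → Finset (ZMod N),
    (∀ q ∈ S, ∀ n : ℤ, (n : ZMod N) ∈ F q → ((N / q : ℕ) : ℤ) ∣ n - c q) ∧
    (∀ q ∈ S, ∀ q' ∈ S, q ≠ q' → Disjoint (F q) (F q')) ∧
    (∀ q ∈ S, (F q).card = q.totient) ∧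
    (∀ q ∈ S, 1 < q → ∀ b v : ℤ, IsCoprime v (N : ℤ) → ∀ s L : ℝ, 0 ≤ L → L ≤ N →
      (q.totient : ℝ) * (L / N - 4 / (top q : ℝ)) ≤ ((hits (F q) b v s L).card : ℝ))

/-- A subset of prescribed size, if there is one. -/
noncomputable def sel {α : Type} (k : ℕ) (s : Finset α) : Finset α :=
  if h : k ≤ s.card then (Finset.exists_subset_card_eq h).choose else ∅

theorem sel_spec {α : Type} {k : ℕ} {s : Finset α} (h : k ≤ s.card) :
    sel k s ⊆ s ∧ (sel k s).card = k := by
  unfold sel
  rw [dif_pos h]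
  exact (Finset.exists_subset_card_eq h).choose_spec

theorem mem_Ico_ceil {s L : ℝ} {k : ℤ} :
    k ∈ Finset.Ico ⌈s⌉ ⌈s + L⌉ ↔ s ≤ k ∧ (k : ℝ) < s + L := by
  rw [Finset.mem_Ico, Int.ceil_le, Int.lt_ceil]

theorem card_Ico_ceil {s L : ℝ} : L - 1 ≤ ((Finset.Ico ⌈s⌉ ⌈s + L⌉).card : ℝ) := by
  rw [Int.card_Ico]
  have h1 := Int.ceil_lt_add_one s
  have h2 := Int.le_ceil (s + L)
  have h3 : (⌈s + L⌉ - ⌈s⌉ : ℤ) ≤ ((⌈s + L⌉ - ⌈s⌉).toNat : ℤ) := Int.self_le_toNat _
  have h4 : (((⌈s + L⌉ - ⌈s⌉ : ℤ)) : ℝ) ≤ (((⌈s + L⌉ - ⌈s⌉).toNat : ℤ) : ℝ) := by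
    exact_mod_cast h3
  push_cast at h4
  linarith

theorem totient_prime_pow_step {P : ℕ} (hP : P.Prime) (i : ℕ) :
    P ^ i + (P ^ (i + 1)).totient = P ^ (i + 1) := by
  rw [Nat.totient_prime_pow_succ hP]
  have := hP.one_le
  obtain ⟨r, hr⟩ : ∃ r, P = r + 1 := ⟨P - 1, by omega⟩
  rw [hr, Nat.add_sub_cancel, pow_succ]
  ring

/-- One step: adjoin the largest prime `P` with exponent `a`. -/
theorem good_step {P a M : ℕ} (hP : P.Prime) (hM : 0 < M) (hcop : P.Coprime M)
    (hmax : ∀ p ∈ M.primeFactors, p < P)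
    (IH : ∀ (S : Finset ℕ) (c : ℕ → ℤ), (∀ q ∈ S, q ∣ M) → Good M S c)
    (S : Finset ℕ) (c : ℕ → ℤ) (hS : ∀ q ∈ S, q ∣ P ^ a * M) : Good (P ^ a * M) S c := by
  classical
  have hP0 : 0 < P := hP.pos
  have hA : 0 < P ^ a := pow_pos hP0 a
  have hAM : (P ^ a).Coprime M := Nat.Coprime.pow_left a hcop
  have : NeZero (P ^ a * M) := ⟨(Nat.mul_pos hA hM).ne'⟩
  have : NeZero (P ^ a) := ⟨hA.ne'⟩
  have : NeZero M := ⟨hM.ne'⟩
  set mo : ℕ → ℕ := fun q => q.gcd M with hmo
  set ei : ℕ → ℕ := fun q => Nat.log P (q / mo q) with hei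
  have hdec : ∀ i m, m ∣ M → mo (P ^ i * m) = m ∧ ei (P ^ i * m) = i := by
    intro i m hm
    have h1 : mo (P ^ i * m) = m := by
      simp only [hmo]
      rw [Nat.Coprime.gcd_mul_left_cancel m (Nat.Coprime.pow_left i hcop)]
      exact Nat.gcd_eq_left hm
    refine ⟨h1, ?_⟩
    simp only [hei]
    rw [h1, Nat.mul_div_cancel _ (Nat.pos_of_dvd_of_pos hm hM), Nat.log_pow hP.one_lt]
  have hq : ∀ q ∈ S, q = P ^ ei q * mo q ∧ mo q ∣ M ∧ ei q ≤ a := by
    intro q hqS
    obtain ⟨y, z, hy, hz, rfl⟩ := Nat.dvd_mul.mp (hS q hqS)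
    obtain ⟨i, hi, rfl⟩ := (Nat.dvd_prime_pow hP).mp hy
    obtain ⟨h1, h2⟩ := hdec i z hz
    rw [h1, h2]
    exact ⟨rfl, hz, hi⟩
  let Sl : ℕ → Finset ℕ := fun i => (S.filter (fun q => ei q = i)).image mo
  let cl : ℕ → ℕ → ℤ := fun i m => c (P ^ i * m)
  have hSl : ∀ i, ∀ m ∈ Sl i, m ∣ M := by
    intro i m hm
    obtain ⟨q, hq', rfl⟩ := Finset.mem_image.mp hm
    exact (hq q (Finset.mem_filter.mp hq').1).2.1
  have hIH := fun i => IH (Sl i) (cl i) (hSl i)
  choose G hGsub hGdisj hGcard hGloc using hIH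
  let K : ℕ → ℕ → Finset (ZMod (P ^ a)) := fun i m =>
    (Finset.range (P ^ i)).image (fun j : ℕ => ((cl i m + j * (P ^ (a - i) : ℕ) : ℤ) : ZMod (P ^ a)))
  have hKmem : ∀ i m, i ≤ a → ∀ n : ℤ,
      ((n : ZMod (P ^ a)) ∈ K i m ↔ ((P ^ (a - i) : ℕ) : ℤ) ∣ n - cl i m) := by
    intro i m hi n
    have hsplit : (P ^ a : ℕ) = P ^ (a - i) * P ^ i := by rw [← pow_add]; congr 1; omega
    constructor
    · intro h
      obtain ⟨j, -, hj⟩ := Finset.mem_image.mp h
      rw [ZMod.intCast_eq_intCast_iff_dvd_sub] at hj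
      have h2 : ((P ^ (a - i) : ℕ) : ℤ) ∣ ((P ^ a : ℕ) : ℤ) := by
        rw [hsplit]; push_cast; exact dvd_mul_right _ _
      have h3 := dvd_add (h2.trans hj) (dvd_mul_left ((P ^ (a - i) : ℕ) : ℤ) (j : ℤ))
      rw [show n - (cl i m + (j : ℤ) * ((P ^ (a - i) : ℕ) : ℤ)) + (j : ℤ) * ((P ^ (a - i) : ℕ) : ℤ)
          = n - cl i m from by ring] at h3
      exact h3
    · rintro ⟨t, ht⟩
      have hpos : (0 : ℤ) < ((P ^ i : ℕ) : ℤ) := by exact_mod_cast pow_pos hP0 i
      refine Finset.mem_image.mpr ⟨(t % ((P ^ i : ℕ) : ℤ)).toNat, ?_, ?_⟩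
      · rw [Finset.mem_range]
        have := Int.emod_lt_of_pos t hpos
        have := Int.emod_nonneg t hpos.ne'
        omega
      · rw [ZMod.intCast_eq_intCast_iff_dvd_sub,
          Int.toNat_of_nonneg (Int.emod_nonneg t hpos.ne')]
        refine ⟨t / ((P ^ i : ℕ) : ℤ), ?_⟩
        have := Int.emod_add_mul_ediv t ((P ^ i : ℕ) : ℤ)
        rw [hsplit]
        push_cast at *
        linear_combination ht - ((P : ℤ) ^ (a - i)) * this
  have hKcard : ∀ i m, i ≤ a → (K i m).card = P ^ i := by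
    intro i m hi
    have hsplit : (P ^ a : ℕ) = P ^ (a - i) * P ^ i := by rw [← pow_add]; congr 1; omega
    rw [Finset.card_image_of_injOn, Finset.card_range]
    intro j hj j' hj' h
    simp only [Finset.coe_range, Set.mem_Iio] at hj hj'
    rw [ZMod.intCast_eq_intCast_iff_dvd_sub, hsplit] at h
    have h' : ((P ^ (a - i) : ℕ) : ℤ) * ((P ^ i : ℕ) : ℤ) ∣
        ((P ^ (a - i) : ℕ) : ℤ) * ((j' : ℤ) - j) := by
      rw [← Nat.cast_mul]
      convert h using 1
      ring
    have hne : ((P ^ (a - i) : ℕ) : ℤ) ≠ 0 := by exact_mod_cast (pow_pos hP0 (a - i)).ne'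
    rw [mul_dvd_mul_iff_left hne] at h'
    have := Int.eq_zero_of_abs_lt_dvd h' (by rw [abs_lt]; omega)
    omega
  let owner : ℕ → ZMod M → Finset ℕ := fun i y => (Sl i).filter (fun m => y ∈ G i m)
  let U : ℕ → ZMod M → Finset (ZMod (P ^ a)) := fun i => Nat.rec (fun _ => ∅)
    (fun i Ui y => Ui y ∪ (owner i y).biUnion (fun m => sel (P ^ i).totient (K i m \ Ui y))) i
  let X : ℕ → ℕ → ZMod M → Finset (ZMod (P ^ a)) := fun i m y =>
    sel (P ^ i).totient (K i m \ U i y)
  have hUsucc : ∀ i y, U (i + 1) y = U i y ∪ (owner i y).biUnion (fun m => X i m y) :=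
    fun i y => rfl
  have howner : ∀ i y, (owner i y).card ≤ 1 := by
    intro i y
    rw [Finset.card_le_one]
    intro m hm m' hm'
    simp only [owner, Finset.mem_filter] at hm hm'
    by_contra hne
    exact Finset.disjoint_left.mp (hGdisj i m hm.1 m' hm'.1 hne) hm.2 hm'.2
  have hUbound : ∀ i y, i ≤ a → (U i y).card + (P ^ i).totient ≤ P ^ i := by
    intro i y
    induction i with
    | zero => intro _; simp [U]
    | succ i ih =>
      intro hi
      have ih' := ih (by omega)
      have h1 : (U (i + 1) y).card ≤ (U i y).card + (P ^ i).totient := by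
        rw [hUsucc]
        refine (Finset.card_union_le _ _).trans (Nat.add_le_add_left ?_ _)
        have hb : ((owner i y).biUnion (fun m => X i m y)).card
            ≤ ∑ _m ∈ owner i y, (P ^ i).totient := by
          refine Finset.card_biUnion_le.trans (Finset.sum_le_sum fun m _ => ?_)
          simp only [X]
          unfold sel
          split
          · rename_i hle
            exact (Finset.exists_subset_card_eq hle).choose_spec.2.le
          · simp
        refine hb.trans ?_
        rw [Finset.sum_const, smul_eq_mul]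
        calc _ ≤ 1 * (P ^ i).totient := Nat.mul_le_mul_right _ (howner i y)
          _ = _ := one_mul _
      have := totient_prime_pow_step hP i
      omega
  have hX : ∀ i m y, i ≤ a → X i m y ⊆ K i m \ U i y ∧ (X i m y).card = (P ^ i).totient := by
    intro i m y hi
    refine sel_spec ?_
    have h1 := Finset.le_card_sdiff (U i y) (K i m)
    have h2 := hUbound i y hi
    rw [hKcard i m hi] at h1
    omega
  have hUmono : ∀ i j y, i ≤ j → U i y ⊆ U j y := by
    intro i j y hij
    induction j, hij using Nat.le_induction with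
    | base => exact subset_refl _
    | succ j _ ih => exact ih.trans (by rw [hUsucc]; exact Finset.subset_union_left)
  let e := ZMod.chineseRemainder hAM
  have he : ∀ n : ℤ, e (n : ZMod (P ^ a * M)) = ((n : ZMod (P ^ a)), (n : ZMod M)) := by
    intro n
    rw [map_intCast]
    rfl
  let F : ℕ → Finset (ZMod (P ^ a * M)) := fun q =>
    (G (ei q) (mo q)).biUnion (fun y => (X (ei q) (mo q) y).image (fun x => e.symm (x, y)))
  have hF : ∀ q z, z ∈ F q ↔
      (e z).2 ∈ G (ei q) (mo q) ∧ (e z).1 ∈ X (ei q) (mo q) (e z).2 := by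
    intro q z
    simp only [F, Finset.mem_biUnion, Finset.mem_image]
    constructor
    · rintro ⟨y, hy, x, hx, rfl⟩
      simp [hy, hx]
    · rintro ⟨h1, h2⟩
      exact ⟨_, h1, _, h2, by simp⟩
  have hmem : ∀ q ∈ S, mo q ∈ Sl (ei q) ∧ cl (ei q) (mo q) = c q := by
    intro q hqS
    exact ⟨Finset.mem_image.mpr ⟨q, Finset.mem_filter.mpr ⟨hqS, rfl⟩, rfl⟩,
      congrArg c (hq q hqS).1.symm⟩
  refine ⟨F, ?_, ?_, ?_, ?_⟩
  · -- classes
    intro q hqS n hn
    obtain ⟨heq, hm, hi⟩ := hq q hqS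
    obtain ⟨hmS, hc⟩ := hmem q hqS
    rw [hF, he] at hn
    have h1 := (hKmem (ei q) (mo q) hi n).mp (Finset.mem_sdiff.mp ((hX _ _ _ hi).1 hn.2)).1
    have h2 := hGsub (ei q) (mo q) hmS n hn.1
    rw [hc] at h1 h2
    have hd : P ^ a * M / q = P ^ (a - ei q) * (M / mo q) := by
      conv_lhs => rw [heq]
      rw [Nat.mul_div_mul_comm (pow_dvd_pow P hi) hm, Nat.pow_div hi hP0]
    rw [hd, Nat.cast_mul]
    refine IsCoprime.mul_dvd ?_ h1 h2
    rw [Int.isCoprime_iff_nat_coprime]
    simp only [Int.natAbs_natCast]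
    exact (Nat.Coprime.pow_left (a - ei q) hcop).coprime_dvd_right (Nat.div_dvd_of_dvd hm)
  · -- disjointness
    intro q hqS q' hqS' hne
    rw [Finset.disjoint_left]
    intro z hz hz'
    rw [hF] at hz hz'
    obtain ⟨hmS, -⟩ := hmem q hqS
    obtain ⟨hmS', -⟩ := hmem q' hqS'
    have key : ∀ i j m m', i ≤ a → j ≤ a → m ∈ Sl i → (e z).2 ∈ G i m →
        (e z).1 ∈ X i m (e z).2 → (e z).1 ∈ X j m' (e z).2 → i < j → False := by
      intro i j m m' hia hja hm hy hx hx' hij
      have h1 : (e z).1 ∈ U (i + 1) (e z).2 := by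
        rw [hUsucc]
        exact Finset.mem_union_right _ (Finset.mem_biUnion.mpr
          ⟨m, Finset.mem_filter.mpr ⟨hm, hy⟩, hx⟩)
      exact (Finset.mem_sdiff.mp ((hX j m' _ hja).1 hx')).2 (hUmono _ _ _ hij h1)
    rcases lt_trichotomy (ei q) (ei q') with h | h | h
    · exact key _ _ _ _ (hq q hqS).2.2 (hq q' hqS').2.2 hmS hz.1 hz.2 hz'.2 h
    · apply hne
      have hm : mo q = mo q' := by
        by_contra hm
        rw [← h] at hmS' hz'
        exact Finset.disjoint_left.mp (hGdisj _ _ hmS _ hmS' hm) hz.1 hz'.1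
      rw [(hq q hqS).1, (hq q' hqS').1, h, hm]
    · exact key _ _ _ _ (hq q' hqS').2.2 (hq q hqS).2.2 hmS' hz'.1 hz'.2 hz.2 h
  · -- sizes
    intro q hqS
    obtain ⟨heq, hm, hi⟩ := hq q hqS
    obtain ⟨hmS, -⟩ := hmem q hqS
    have hinj : ∀ y, Function.Injective (fun x => e.symm (x, y)) := by
      intro y x x' h
      simpa using h
    rw [Finset.card_biUnion]
    · simp only [Finset.card_image_of_injective _ (hinj _), (hX _ _ _ hi).2, Finset.sum_const,
        hGcard _ _ hmS, smul_eq_mul]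
      conv_rhs => rw [heq]
      rw [Nat.totient_mul ((Nat.Coprime.pow_left _ hcop).coprime_dvd_right hm), mul_comm]
    · intro y _ y' _ hne
      rw [Function.onFun, Finset.disjoint_left]
      intro z hz hz'
      obtain ⟨x, -, rfl⟩ := Finset.mem_image.mp hz
      obtain ⟨x', -, hx'⟩ := Finset.mem_image.mp hz'
      exact hne (by simpa using congrArg (fun w => (e w).2) hx'.symm)
  · -- local count
    intro q hqS hq1 b v hv s L hL0 hLN
    obtain ⟨heq, hm, hi⟩ := hq q hqS
    obtain ⟨hmS, hc⟩ := hmem q hqS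
    have hvA : IsCoprime v ((P ^ a : ℕ) : ℤ) := by
      push_cast at hv ⊢; exact hv.of_mul_right_left
    have hvM : IsCoprime v (M : ℤ) := by push_cast at hv; exact hv.of_mul_right_right
    have hMR : (0 : ℝ) < M := by exact_mod_cast hM
    have hAR : (0 : ℝ) < ((P ^ a : ℕ) : ℝ) := by exact_mod_cast hA
    rcases Nat.eq_zero_or_pos (ei q) with h0 | hpos
    · -- low element
      have hqm : mo q = q := by
        conv_rhs => rw [heq, h0, pow_zero, one_mul]
      obtain ⟨u, w, huw⟩ := hvA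
      set k0 : ℤ := u * (c q - b) with hk0
      have hv' : IsCoprime (v * ((P ^ a : ℕ) : ℤ)) (M : ℤ) :=
        hvM.mul_left (by rw [Int.isCoprime_iff_nat_coprime]; simpa using hAM)
      have hloc := hGloc (ei q) (mo q) hmS (by rw [hqm]; exact hq1) (b + v * k0)
        (v * ((P ^ a : ℕ) : ℤ)) hv' ((s - k0) / ((P ^ a : ℕ) : ℝ)) (L / ((P ^ a : ℕ) : ℝ))
        (div_nonneg hL0 hAR.le) (by rw [div_le_iff₀ hAR]; push_cast at hLN ⊢; linarith)
      rw [hqm] at hloc
      have hr : L / ((P ^ a : ℕ) : ℝ) / (M : ℝ) = L / ((P ^ a * M : ℕ) : ℝ) := by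
        rw [div_div, Nat.cast_mul]
      rw [hr] at hloc
      refine hloc.trans (Nat.cast_le.mpr ?_)
      refine Finset.card_le_card_of_injOn (fun k => k0 + ((P ^ a : ℕ) : ℤ) * k) ?_ ?_
      · intro k hk
        simp only [Finset.mem_coe, hits, Finset.mem_filter, mem_Ico_ceil] at hk ⊢
        obtain ⟨⟨hk1, hk2⟩, hk3⟩ := hk
        rw [div_le_iff₀ hAR] at hk1
        rw [← add_div, lt_div_iff₀ hAR] at hk2
        refine ⟨⟨?_, ?_⟩, ?_⟩
        · push_cast at hk1 ⊢; linarith
        · push_cast at hk2 ⊢; linarith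
        · have hy : b + v * (k0 + ((P ^ a : ℕ) : ℤ) * k) = b + v * k0 + v * ((P ^ a : ℕ) : ℤ) * k := by
            ring
          rw [hF, he, hy, hqm]
          refine ⟨hk3, ?_⟩
          have hXK := hX (ei q) q
            (((b + v * k0 + v * ((P ^ a : ℕ) : ℤ) * k : ℤ)) : ZMod M) hi
          have hK : X (ei q) q (((b + v * k0 + v * ((P ^ a : ℕ) : ℤ) * k : ℤ)) : ZMod M)
              = K (ei q) q := by
            refine Finset.eq_of_subset_of_card_le (hXK.1.trans Finset.sdiff_subset) ?_
            rw [hXK.2, hKcard _ _ hi, h0]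
            simp
          rw [hK, hKmem _ _ hi]
          rw [hqm] at hc
          rw [hc, h0, Nat.sub_zero]
          refine ⟨v * k - (c q - b) * w, ?_⟩
          rw [hk0]
          linear_combination (c q - b) * huw
      · intro k _ k' _ h
        simp only [add_right_inj, mul_eq_mul_left_iff] at h
        rcases h with h | h
        · exact h
        · exact absurd h (by exact_mod_cast hA.ne')
    · -- the largest prime divides q
      have htop : top q = P := by
        refine le_antisymm (Finset.sup_le fun p hp => ?_) ?_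
        · obtain ⟨hpp, hdvd, -⟩ := Nat.mem_primeFactors.mp hp
          rw [heq] at hdvd
          rcases hpp.dvd_mul.mp hdvd with h | h
          · exact ((Nat.prime_dvd_prime_iff_eq hpp hP).mp (hpp.dvd_of_dvd_pow h)).le
          · exact (hmax p (Nat.mem_primeFactors.mpr ⟨hpp, h.trans hm, hM.ne'⟩)).le
        · exact Finset.le_sup (f := id) (Nat.mem_primeFactors.mpr ⟨hP, by
            rw [heq]; exact (dvd_pow_self P hpos.ne').mul_right _, by omega⟩)
      rw [htop]
      set i := ei q with hiq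
      set m := mo q with hmq
      set d : ℕ := P ^ (a - i) * M with hd
      have hdpos : 0 < d := Nat.mul_pos (pow_pos hP0 _) hM
      have hdR : (0 : ℝ) < d := by exact_mod_cast hdpos
      have hdN : (d : ℤ) ∣ ((P ^ a * M : ℕ) : ℤ) :=
        Int.natCast_dvd_natCast.mpr (Nat.mul_dvd_mul_right (pow_dvd_pow P (Nat.sub_le a i)) M)
      obtain ⟨u, w, huw⟩ := hv.of_isCoprime_of_dvd_right hdN
      let kk : ℤ → ZMod (P ^ a * M) := fun k => ((b + v * k : ℤ) : ZMod (P ^ a * M))
      let H : ZMod M → Finset ℤ := fun y =>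
        (hits (F q) b v s L).filter (fun k => (e (kk k)).2 = y)
      have hy : ∀ y ∈ G i m, L / d - 1 - ((P ^ i : ℕ) - (P ^ i).totient : ℕ)
          ≤ ((H y).card : ℝ) := by
        intro y hyG
        set n0 : ℤ := ((e.symm (((c q : ℤ) : ZMod (P ^ a)), y)).val : ℤ) with hn0
        have hn0e : ((n0 : ZMod (P ^ a)), (n0 : ZMod M)) = (((c q : ℤ) : ZMod (P ^ a)), y) := by
          rw [← he, hn0, Int.cast_natCast, ZMod.natCast_zmod_val]
          simp
        obtain ⟨hn0A, hn0M⟩ := Prod.mk.injEq _ _ _ _ ▸ hn0e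
        set k1 : ℤ := u * (n0 - b) with hk1
        let T : Finset ℤ := (Finset.Ico ⌈(s - k1) / (d : ℝ)⌉ ⌈(s - k1) / (d : ℝ) + L / d⌉).image
          (fun t : ℤ => k1 + (d : ℤ) * t)
        have hT : L / d - 1 ≤ (T.card : ℝ) := by
          rw [Finset.card_image_of_injective]
          · exact card_Ico_ceil
          · intro t t' h
            simpa [hdpos.ne'] using h
        have hTk : ∀ k ∈ T, (s ≤ k ∧ (k : ℝ) < s + L) ∧ (e (kk k)).2 = y
            ∧ (e (kk k)).1 ∈ K i m := by
          intro k hk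
          obtain ⟨t, ht, rfl⟩ := Finset.mem_image.mp hk
          rw [mem_Ico_ceil, div_le_iff₀ hdR, ← add_div, lt_div_iff₀ hdR] at ht
          refine ⟨⟨?_, ?_⟩, ?_, ?_⟩
          · push_cast; linarith [ht.1]
          · push_cast; linarith [ht.2]
          · simp only [kk, he]
            rw [← hn0M, ZMod.intCast_eq_intCast_iff_dvd_sub]
            refine ⟨((P ^ (a - i) : ℕ) : ℤ) * ((n0 - b) * w - v * t), ?_⟩
            rw [hk1]
            simp only [hd, Nat.cast_mul] at huw ⊢
            linear_combination (-(n0 - b)) * huw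
          · simp only [kk, he]
            rw [hKmem i m hi, hc]
            have h1 : ((P ^ a : ℕ) : ℤ) ∣ c q - n0 := (ZMod.intCast_eq_intCast_iff_dvd_sub _ _ _).mp hn0A
            obtain ⟨r, hr⟩ := (Int.natCast_dvd_natCast.mpr (pow_dvd_pow P (Nat.sub_le a i))).trans h1
            refine ⟨(M : ℤ) * (v * t - (n0 - b) * w) - r, ?_⟩
            rw [hk1]
            simp only [hd, Nat.cast_mul] at huw ⊢
            linear_combination (n0 - b) * huw - hr
        have hbad : (T.filter (fun k => (e (kk k)).1 ∉ X i m y)).card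
            ≤ (K i m \ X i m y).card := by
          refine Finset.card_le_card_of_injOn (fun k => (e (kk k)).1) ?_ ?_
          · intro k hk
            simp only [Finset.mem_coe, Finset.mem_filter] at hk
            simp only [Finset.mem_coe, Finset.mem_sdiff]
            exact ⟨(hTk k hk.1).2.2, hk.2⟩
          · intro k hk k' hk' h
            simp only [Finset.mem_coe, Finset.mem_filter] at hk hk'
            obtain ⟨⟨a1, a2⟩, a3, -⟩ := hTk k hk.1
            obtain ⟨⟨b1, b2⟩, b3, -⟩ := hTk k' hk'.1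
            have hee : kk k = kk k' := e.injective (Prod.ext h (a3.trans b3.symm))
            simp only [kk, ZMod.intCast_eq_intCast_iff_dvd_sub] at hee
            have hdiv : ((P ^ a * M : ℕ) : ℤ) ∣ v * (k' - k) := by
              convert hee using 1
              ring
            have hdiv' := hv.symm.dvd_of_dvd_mul_left hdiv
            have hlt : |k' - k| < ((P ^ a * M : ℕ) : ℤ) := by
              have : |((k' : ℝ) - k)| < ((P ^ a * M : ℕ) : ℝ) := by
                rw [abs_lt]; constructor <;> linarith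
              exact_mod_cast this
            have := Int.eq_zero_of_abs_lt_dvd hdiv' hlt
            omega
        have hgood : T.filter (fun k => (e (kk k)).1 ∈ X i m y) ⊆ H y := by
          intro k hk
          simp only [Finset.mem_filter] at hk
          obtain ⟨a1, a3, -⟩ := hTk k hk.1
          simp only [H, hits, Finset.mem_filter, mem_Ico_ceil]
          refine ⟨⟨a1, ?_⟩, a3⟩
          rw [hF]
          show (e (kk k)).2 ∈ G i m ∧ (e (kk k)).1 ∈ X i m (e (kk k)).2
          rw [a3]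
          exact ⟨hyG, hk.2⟩
        have hsplit : T.card ≤ (H y).card + (K i m \ X i m y).card := by
          rw [← Finset.card_filter_add_card_filter_not (s := T) (fun k => (e (kk k)).1 ∈ X i m y)]
          exact Nat.add_le_add (Finset.card_le_card hgood) hbad
        rw [Finset.card_sdiff_of_subset ((hX i m y hi).1.trans Finset.sdiff_subset),
          hKcard i m hi, (hX i m y hi).2] at hsplit
        have : (T.card : ℝ) ≤ (H y).card + ((P ^ i - (P ^ i).totient : ℕ) : ℝ) := by
          exact_mod_cast hsplit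
        linarith
      have hsum : ∑ y ∈ G i m, (H y).card ≤ (hits (F q) b v s L).card := by
        rw [← Finset.card_biUnion]
        · exact Finset.card_le_card (Finset.biUnion_subset.mpr fun y _ => Finset.filter_subset _ _)
        · intro y _ y' _ hne
          rw [Function.onFun, Finset.disjoint_left]
          intro k hk hk'
          simp only [H, Finset.mem_filter] at hk hk'
          exact hne (hk.2.symm.trans hk'.2)
      obtain ⟨j, hj⟩ : ∃ j, i = j + 1 := ⟨i - 1, by omega⟩
      have hphi : (P ^ i).totient = P ^ j * (P - 1) := by rw [hj, Nat.totient_prime_pow_succ hP]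
      have hsub : P ^ i - (P ^ i).totient = P ^ j := by
        have := totient_prime_pow_step hP j
        rw [← hj] at this
        omega
      have hqphi : q.totient = (P ^ i).totient * m.totient := by
        conv_lhs => rw [heq]
        exact Nat.totient_mul ((Nat.Coprime.pow_left _ hcop).coprime_dvd_right hm)
      have hdq : L / (d : ℝ) = (P : ℝ) ^ i * (L / ((P ^ a * M : ℕ) : ℝ)) := by
        have : (P : ℝ) ^ a = (P : ℝ) ^ (a - i) * (P : ℝ) ^ i := by rw [← pow_add]; congr 1; omega
        rw [hd]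
        push_cast
        rw [this]
        have hPne : (P : ℝ) ≠ 0 := by exact_mod_cast hP0.ne'
        field_simp
      have hP2 : (2 : ℝ) ≤ P := by exact_mod_cast hP.two_le
      have hL' : 0 ≤ L / ((P ^ a * M : ℕ) : ℝ) := div_nonneg hL0 (Nat.cast_nonneg _)
      have hkey : ((P ^ i).totient : ℝ) * (L / ((P ^ a * M : ℕ) : ℝ) - 4 / (P : ℝ))
          ≤ L / d - 1 - ((P ^ i - (P ^ i).totient : ℕ) : ℝ) := by
        rw [hdq, hsub, hphi, hj, Nat.cast_mul, Nat.cast_sub hP.one_le]
        push_cast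
        have h1 : (1 : ℝ) ≤ (P : ℝ) ^ j := one_le_pow₀ (by linarith)
        have h2 : (2 : ℝ) ≤ ((P : ℝ) - 1) * (4 / P) := by
          rw [mul_div, le_div_iff₀ (by linarith)]; nlinarith
        have h3 := mul_le_mul_of_nonneg_left h2 (zero_le_one.trans h1)
        have h4 : 0 ≤ (P : ℝ) ^ j * (L / ((P : ℝ) ^ a * (M : ℝ))) := by
          push_cast at hL'; positivity
        rw [pow_succ]
        nlinarith
      calc (q.totient : ℝ) * (L / ((P ^ a * M : ℕ) : ℝ) - 4 / (P : ℝ))
          = ∑ _y ∈ G i m, ((P ^ i).totient : ℝ) * (L / ((P ^ a * M : ℕ) : ℝ) - 4 / (P : ℝ)) := by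
            rw [Finset.sum_const, hGcard i m hmS, hqphi, nsmul_eq_mul]; push_cast; ring
        _ ≤ ∑ y ∈ G i m, ((H y).card : ℝ) :=
            Finset.sum_le_sum fun y hyG => hkey.trans (hy y hyG)
        _ ≤ _ := by exact_mod_cast hsum

theorem good_all : ∀ (N : ℕ), 0 < N → ∀ (S : Finset ℕ) (c : ℕ → ℤ),
    (∀ q ∈ S, q ∣ N) → Good N S c := by
  intro N
  induction N using Nat.strong_induction_on with
  | _ N ih =>
    intro hN S c hS
    rcases eq_or_lt_of_le (Nat.one_le_iff_ne_zero.mpr hN.ne') with h1 | h1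
    · subst h1
      have hq : ∀ q ∈ S, q = 1 := fun q hq => Nat.dvd_one.mp (hS q hq)
      refine ⟨fun _ => Finset.univ, ?_, ?_, ?_, ?_⟩
      · intro q hq' n _; rw [hq q hq']; simp
      · intro q hq1 q' hq2 hne; exact absurd ((hq q hq1).trans (hq q' hq2).symm) hne
      · intro q hq'; rw [hq q hq']; simp
      · intro q hq' hlt; rw [hq q hq'] at hlt; exact absurd hlt (lt_irrefl _)
    · have hne : N.primeFactors.Nonempty := Nat.nonempty_primeFactors.mpr h1
      set P := N.primeFactors.max' hne with hPdef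
      have hPmem := N.primeFactors.max'_mem hne
      rw [← hPdef] at hPmem
      obtain ⟨hP, hPN, -⟩ := Nat.mem_primeFactors.mp hPmem
      set a := N.factorization P
      set M := N / P ^ a
      have hNe : P ^ a * M = N := Nat.ordProj_mul_ordCompl_eq_self N P
      have hM : 0 < M := Nat.ordCompl_pos P hN.ne'
      have hcop : P.Coprime M := Nat.coprime_ordCompl hP hN.ne'
      have hMN : M < N := by
        refine lt_of_le_of_ne (Nat.le_of_dvd hN ⟨P ^ a, by rw [mul_comm]; exact hNe.symm⟩) ?_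
        intro h
        exact hP.ne_one (Nat.Coprime.eq_one_of_dvd hcop (h ▸ hPN))
      have hmax : ∀ p ∈ M.primeFactors, p < P := by
        intro p hp
        obtain ⟨hpp, hdvd, -⟩ := Nat.mem_primeFactors.mp hp
        refine lt_of_le_of_ne (Finset.le_max' _ _ (Nat.mem_primeFactors.mpr
          ⟨hpp, hdvd.trans ⟨P ^ a, by rw [mul_comm]; exact hNe.symm⟩, hN.ne'⟩)) ?_
        intro h
        exact hP.ne_one (Nat.Coprime.eq_one_of_dvd hcop (h ▸ hdvd))
      have := good_step (a := a) hP hM hcop hmax (fun S' c' h' => ih M hMN hM S' c' h') S c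
        (by rwa [hNe])
      rwa [hNe] at this

end Vale.Agent.P028
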